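import Crest.Agent.PVa.R196.Defs

-- ▼ part PVa/R196/Prob
section

/-!
Task R196-P1: basic probability, the first moment bound `nc`, and the hexagon lemma.

* `exp_pres`, `exp_abs`: the coordinates of `ω` are independent and uniform (`Fintype.piFinset`, `Finset.prod_univ_sum`).
* `nc`: call `T` (with `t = card T ≥ 1`, `Λ` = number of classes) bad if `n ^ Λ * r ≤ ∏_{o ∈ T} nn o = n ^ (∑ kk) * r ^ t`
  (`n = 2 r^K ≤ r^(K+1)` for `r ≥ 2`).  If `T` is not bad then `D = Λ - ∑ kk ≥ 1` and `r^((K+1) D) ≥ n^D > r^(t-1)`, so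
  `(K+1) D ≥ t`.  Union bound: enumerate `T` by `Fin t`; it is determined by the colours (`card Col ^ t`), a map from the slots
  (`Fin t × Fin A`, `A` = maximal arity) to `Fin Λ × Bool` and a map `Fin Λ → Fin (r^K)`.  So the expected number of bad present
  `T` is at most `C(B, M) / r`.
* `hex_whp`: for fixed `s` and `𝒢` there are at least `(n/4 - 6)^5`-many generic `f` with `f 0 = s` and the other labels in `𝒢`
  (the classes of `𝒢` number at least `n/4`); all are absent with probability `(1 - 1/nn)^# ≤ exp (-#/nn)`, `nn = n³ r`, and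
  `# / nn ≥ c n² / r ≥ c n r^(K-1)`; union bound over `n 2^n` pairs `(s, 𝒢)`.
-/

set_option autoImplicit false

namespace Crest.Agent.R196

open Finset Filter Topology
open scoped BigOperators

namespace Model

variable {M : Model}

open Classical in
theorem whp_iff {A : (r : ℕ) → M.Om r → Prop} :
    WHP A ↔ Tendsto (fun r => 𝔼 ω : M.Om r, if A r ω then (0 : ℝ) else 1) atTop (𝓝 0) := by
  unfold WHP
  refine tendsto_congr fun r => ?_
  rw [Fintype.expect_eq_sum_div_card, card_filter]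
  congr 1
  push_cast
  exact sum_congr rfl fun ω _ => by by_cases h : A r ω <;> simp [h]

open Classical in
theorem WHP.of_le {A : (r : ℕ) → M.Om r → Prop} (b : ℕ → ℝ)
    (hb : ∀ᶠ r in atTop, (𝔼 ω : M.Om r, if A r ω then (0 : ℝ) else 1) ≤ b r)
    (hb0 : Tendsto b atTop (𝓝 0)) : WHP A :=
  whp_iff.2 (squeeze_zero' (Eventually.of_forall fun _ =>
    expect_nonneg fun _ _ => by split_ifs <;> norm_num) hb hb0)

theorem WHP.mono' {A A' : (r : ℕ) → M.Om r → Prop} (h : WHP A)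
    (hA : ∀ᶠ r in atTop, ∀ ω, A r ω → A' r ω) : WHP A' := by
  refine WHP.of_le _ (hA.mono fun r hr => expect_le_expect fun ω _ => ?_) (whp_iff.1 h)
  have := hr ω
  split_ifs <;> first | tauto | norm_num

theorem WHP.mono {A A' : (r : ℕ) → M.Om r → Prop} (h : WHP A) (hA : ∀ r ω, A r ω → A' r ω) :
    WHP A' := h.mono' (Eventually.of_forall hA)

theorem WHP.and {A A' : (r : ℕ) → M.Om r → Prop} (h : WHP A) (h' : WHP A') :
    WHP (fun r ω => A r ω ∧ A' r ω) := by
  have := (whp_iff.1 h).add (whp_iff.1 h')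
  rw [add_zero] at this
  refine WHP.of_le _ (Eventually.of_forall fun r => ?_) this
  rw [← expect_add_distrib]
  refine expect_le_expect fun ω _ => ?_
  by_cases h1 : A r ω <;> by_cases h2 : A' r ω <;> simp [h1, h2]

theorem WHP.forall {ι : Type} [Finite ι] {A : ι → (r : ℕ) → M.Om r → Prop} (h : ∀ i, WHP (A i)) :
    WHP (fun r ω => ∀ i, A i r ω) := by
  classical
  have := Fintype.ofFinite ι
  have key : ∀ s : Finset ι, WHP (M := M) (fun r ω => ∀ i ∈ s, A i r ω) := fun s => by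
    induction s using Finset.induction_on with
    | empty => exact WHP.of_le (fun _ => 0) (Eventually.of_forall fun r => by simp) tendsto_const_nhds
    | insert a s _ ih =>
      exact ((h a).and ih).mono fun r ω h' => by simpa using h'
  exact (key univ).mono fun r ω h' i => h' i (mem_univ i)

theorem nn_pos {r : ℕ} (hr : 0 < r) (c : M.Col) : 0 < M.nn r c := by
  unfold nn; positivity

theorem om_nonempty {r : ℕ} (hr : 0 < r) : Nonempty (M.Om r) := ⟨fun o => ⟨0, nn_pos hr o.c⟩⟩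

theorem WHP.exists {A : (r : ℕ) → M.Om r → Prop} (h : WHP A) (r₀ : ℕ) :
    ∃ r ≥ r₀, ∃ ω, A r ω := by
  obtain ⟨r, h1, h2, h3⟩ := (((whp_iff.1 h).eventually (gt_mem_nhds one_pos)).and
    ((eventually_ge_atTop r₀).and (eventually_gt_atTop 0))).exists
  refine ⟨r, h2, ?_⟩
  by_contra hc
  push Not at hc
  have := om_nonempty (M := M) h3
  simp [hc] at h1

theorem WHP.of_expect (Y : (r : ℕ) → M.Om r → ℝ) (h0 : ∀ r ω, 0 ≤ Y r ω) (b : ℕ → ℝ)
    (hb : ∀ᶠ r in atTop, (𝔼 ω, Y r ω) ≤ b r) (hb0 : Tendsto b atTop (𝓝 0)) {δ : ℝ} (hδ : 0 < δ) :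
    WHP (fun r ω => Y r ω ≤ δ) := by
  refine WHP.of_le (fun r => b r / δ) (hb.mono fun r hr => ?_) (by simpa using hb0.div_const δ)
  refine le_trans ?_ (div_le_div_of_nonneg_right hr hδ.le)
  rw [expect_div]
  refine expect_le_expect fun ω _ => ?_
  split_ifs with h
  · exact div_nonneg (h0 r ω) hδ.le
  · rw [le_div_iff₀ hδ]; linarith [not_le.1 h]

theorem exp_prod {r : ℕ} (hr : 0 < r) (T : Finset (M.Obj r)) (g : (o : M.Obj r) → ℕ → ℝ) :
    (𝔼 ω : M.Om r, ∏ o ∈ T, g o (ω o)) = ∏ o ∈ T, 𝔼 x : Fin (M.nn r o.c), g o x := by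
  have e1 : ∀ ω : M.Om r, ∏ o ∈ T, g o (ω o) = ∏ o, if o ∈ T then g o (ω o) else 1 := fun ω => by
    rw [prod_ite_mem, univ_inter]
  simp only [e1, Fintype.expect_eq_sum_div_card]
  rw [← Fintype.piFinset_univ, ← prod_univ_sum (fun o : M.Obj r => (univ : Finset (Fin (M.nn r o.c))))
    (fun o x => if o ∈ T then g o x else 1), Fintype.card_pi, Nat.cast_prod, ← prod_div_distrib,
    ← univ_inter T, ← prod_ite_mem, univ_inter]
  refine prod_congr rfl fun o _ => ?_
  have := (nn_pos (M := M) hr o.c).ne'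
  split_ifs
  · rfl
  · simp [this]

theorem exp_ind {n : ℕ} (hn : 0 < n) (a b : ℝ) :
    (𝔼 x : Fin n, if (x : ℕ) = 0 then a else b) = a / n + b * (1 - 1 / n) := by
  obtain ⟨n, rfl⟩ := Nat.exists_eq_succ_of_ne_zero hn.ne'
  rw [Fintype.expect_eq_sum_div_card, Fin.sum_univ_succ]
  simp
  field_simp
  ring

open Classical in
theorem exp_pres {r : ℕ} (hr : 0 < r) (T : Finset (M.Obj r)) :
    (𝔼 ω : M.Om r, ∏ o ∈ T, if Pres ω o then (M.nn r o.c : ℝ) else 0) = 1 := by
  have := exp_prod hr T (fun o x => if x = 0 then (M.nn r o.c : ℝ) else 0)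
  refine (Eq.trans (by congr; funext ω; congr; funext o; unfold Pres; congr) this).trans
    (prod_eq_one fun o _ => ?_)
  have := (nn_pos (M := M) hr o.c)
  rw [exp_ind this, zero_mul, add_zero, div_self (by positivity)]

open Classical in
theorem exp_abs {r : ℕ} (hr : 0 < r) (T : Finset (M.Obj r)) :
    (𝔼 ω : M.Om r, if ∀ o ∈ T, ¬ Pres ω o then (1 : ℝ) else 0) =
      ∏ o ∈ T, (1 - 1 / (M.nn r o.c : ℝ)) := by
  have := exp_prod hr T (fun o x => if x = 0 then (0 : ℝ) else 1)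
  refine (Eq.trans (expect_congr rfl fun ω _ => ?_) this).trans (prod_congr rfl fun o _ => ?_)
  · split_ifs with h
    · exact (prod_eq_one fun o ho => if_neg (h o ho)).symm
    · push Not at h
      obtain ⟨o, ho, h⟩ := h
      exact (prod_eq_zero ho (by exact if_pos h)).symm
  · rw [exp_ind (nn_pos hr o.c)]; simp

open Classical in
theorem exp_pres' {r : ℕ} (hr : 0 < r) (T : Finset (M.Obj r)) :
    (𝔼 ω : M.Om r, if ∀ o ∈ T, Pres ω o then (1 : ℝ) else 0) = 1 / ∏ o ∈ T, (M.nn r o.c : ℝ) := by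
  have h0 : (0 : ℝ) < ∏ o ∈ T, (M.nn r o.c : ℝ) :=
    prod_pos fun o _ => by exact_mod_cast nn_pos hr o.c
  refine Eq.trans (expect_congr rfl fun ω _ => ?_) ((expect_div _ _ _).symm.trans
    (congrArg (· / _) (exp_pres hr T)))
  split_ifs with h
  · rw [prod_congr rfl fun o ho => if_pos (h o ho), div_self h0.ne']
  · push Not at h
    obtain ⟨o, ho, h⟩ := h
    rw [prod_eq_zero ho (by exact if_neg h), zero_div]

/-- The classes used by a set of objects. -/
noncomputable def clsOf {r : ℕ} (T : Finset (M.Obj r)) : Finset (Fin (r ^ M.K)) :=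
  T.biUnion (fun o => univ.image (fun s => (o.f s).1))

theorem card_clsOf {r : ℕ} (T : Finset (M.Obj r)) : (clsOf T).card ≤ T.card * ∑ c, M.ar c := by
  refine card_biUnion_le_card_mul _ _ _ fun o _ => card_image_le.trans ?_
  rw [card_univ, Fintype.card_fin]
  exact single_le_sum (f := M.ar) (fun _ _ => Nat.zero_le _) (mem_univ _)

theorem card_fiber_clsOf {r L : ℕ} (U : Finset (Fin (r ^ M.K))) (hU : U.card ≤ L)
    (S : Finset (Finset (M.Obj r))) :
    (S.filter fun T => clsOf T = U).card ≤ 2 ^ ∑ c, (L * 2) ^ M.ar c := by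
  classical
  let O : Finset (M.Obj r) := univ.filter fun o => ∀ s, (o.f s).1 ∈ U
  have h1 : O.card ≤ ∑ c, (L * 2) ^ M.ar c := by
    refine (card_le_card_of_injOn (t := univ.sigma fun c : M.Col =>
      Fintype.piFinset fun _ : Fin (M.ar c) => U ×ˢ (univ : Finset Bool))
      (fun o => ⟨o.c, o.f⟩) (fun o ho => ?_) (fun o _ o' _ h => ?_)).trans ?_
    · simpa [O] using ho
    · cases o; cases o'; cases h; rfl
    · rw [card_sigma]
      refine sum_le_sum fun c _ => ?_
      simp only [Fintype.card_piFinset, card_product, card_univ, Fintype.card_bool, prod_const,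
        Fintype.card_fin]
      gcongr
  refine (card_le_card (t := O.powerset) fun T hT => ?_).trans
    (by rw [card_powerset]; exact Nat.pow_le_pow_right two_pos h1)
  rw [mem_filter] at hT
  refine mem_powerset.2 fun o ho => mem_filter.2 ⟨mem_univ _, fun s => ?_⟩
  rw [← hT.2]
  exact mem_biUnion.2 ⟨o, ho, mem_image_of_mem _ (mem_univ s)⟩

theorem sum_subsets_le {N : ℕ} (hN : 0 < N) (L : ℕ) :
    ∑ U ∈ univ.filter (fun U : Finset (Fin N) => U.card ≤ L), (1 : ℝ) / (N : ℝ) ^ U.card ≤ L + 1 := by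
  rw [← sum_fiberwise_of_maps_to (s := univ.filter (fun U : Finset (Fin N) => U.card ≤ L))
    (t := range (L + 1)) (g := fun U => U.card)
    (fun U hU => mem_range.2 (Nat.lt_succ_of_le (mem_filter.1 hU).2))]
  refine (sum_le_card_nsmul _ _ 1 fun k _ => ?_).trans (by simp)
  rw [sum_congr rfl (g := fun _ => (1 : ℝ) / (N : ℝ) ^ k) fun U hU => by rw [(mem_filter.1 hU).2],
    sum_const, nsmul_eq_mul, mul_one_div, div_le_one (by positivity)]
  have : ((univ.filter (fun U : Finset (Fin N) => U.card ≤ L)).filter fun U => U.card = k).card ≤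
      N ^ k := by
    refine (card_le_card (t := powersetCard k univ) fun U hU => ?_).trans ?_
    · exact mem_powersetCard.2 ⟨subset_univ _, (mem_filter.1 hU).2⟩
    · rw [card_powersetCard, card_univ, Fintype.card_fin]; exact Nat.choose_le_pow N k
  exact_mod_cast this

theorem bad_le {r : ℕ} (hr : 2 ≤ r) (T : Finset (M.Obj r))
    (h : ¬ (M.K + 1) * ∑ o ∈ T, M.kk o.c + T.card ≤ (M.K + 1) * (clsOf T).card) :
    (r ^ M.K) ^ (clsOf T).card * r ≤ ∏ o ∈ T, M.nn r o.c := by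
  unfold nn
  rw [prod_mul_distrib, prod_pow_eq_pow_sum, prod_const]
  set Λ := (clsOf T).card
  set s := ∑ o ∈ T, M.kk o.c
  set t := T.card with ht
  have h0 : 0 < t := by
    by_contra h0
    have : T = ∅ := card_eq_zero.1 (by omega)
    apply h
    simp [s, ht, this]
  refine le_trans (Nat.mul_le_mul_right _ (Nat.pow_le_pow_left (Nat.le_mul_of_pos_left _ two_pos) _)) ?_
  rcases le_or_gt Λ s with h1 | h1
  · exact Nat.mul_le_mul (Nat.pow_le_pow_right (by positivity) h1) (Nat.le_self_pow h0.ne' r)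
  · obtain ⟨D, hD⟩ := Nat.exists_eq_add_of_le h1.le
    rw [hD, pow_add, mul_assoc]
    refine Nat.mul_le_mul_left _ ?_
    have h2 : (M.K + 1) * D + 1 ≤ t := by rw [hD, mul_add] at h; omega
    calc (2 * r ^ M.K) ^ D * r ≤ (r ^ (M.K + 1)) ^ D * r := by
          gcongr; rw [pow_succ']; gcongr
      _ = r ^ ((M.K + 1) * D + 1) := by rw [← pow_mul, pow_succ]
      _ ≤ r ^ t := Nat.pow_le_pow_right (by omega) h2

theorem nc (B : ℕ) : WHP (fun r (ω : M.Om r) => NC ω B) := by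
  classical
  set L := B * ∑ c, M.ar c
  set C : ℝ := (2 ^ ∑ c, (L * 2) ^ M.ar c : ℕ) * (L + 1)
  refine WHP.of_le (fun r => C / r) ((eventually_ge_atTop 2).mono fun r hr => ?_)
    (tendsto_const_div_atTop_nhds_zero_nat C)
  have hr0 : 0 < r := by omega
  let S : Finset (Finset (M.Obj r)) := univ.filter fun T => T.card ≤ B ∧
    ¬ (M.K + 1) * ∑ o ∈ T, M.kk o.c + T.card ≤ (M.K + 1) * (clsOf T).card
  calc (𝔼 ω : M.Om r, if NC ω B then (0 : ℝ) else 1)
      ≤ 𝔼 ω : M.Om r, ∑ T ∈ S, if ∀ o ∈ T, Pres ω o then (1 : ℝ) else 0 := by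
        refine expect_le_expect fun ω _ => ?_
        split_ifs with h
        · exact sum_nonneg fun _ _ => by split_ifs <;> norm_num
        · simp only [NC, not_forall] at h
          obtain ⟨T, h1, h2, h3⟩ := h
          refine le_trans (by rw [if_pos h2]) (single_le_sum (f := fun T : Finset (M.Obj r) =>
            if ∀ o ∈ T, Pres ω o then (1 : ℝ) else 0) (fun _ _ => by split_ifs <;> norm_num)
            (mem_filter.2 ⟨mem_univ T, h1, h3⟩))
    _ ≤ ∑ T ∈ S, 1 / ((r ^ M.K : ℕ) : ℝ) ^ (clsOf T).card / r := by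
        rw [expect_sum_comm]
        refine sum_le_sum fun T hT => ?_
        rw [exp_pres' hr0, div_div]
        refine one_div_le_one_div_of_le (by positivity) ?_
        exact_mod_cast bad_le hr T (mem_filter.1 hT).2.2
    _ ≤ C / r := by
        rw [← sum_div]
        refine div_le_div_of_nonneg_right ?_ (by positivity)
        rw [← sum_fiberwise_of_maps_to (t := univ.filter fun U : Finset (Fin (r ^ M.K)) => U.card ≤ L)
          (g := clsOf) (fun T hT => mem_filter.2 ⟨mem_univ _, (card_clsOf T).trans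
            (Nat.mul_le_mul_right _ (mem_filter.1 hT).2.1)⟩)]
        refine le_trans (sum_le_sum fun U hU => ?_) (le_trans (mul_sum _ _ _).ge
          (mul_le_mul_of_nonneg_left (sum_subsets_le (N := r ^ M.K) (by positivity) L)
            (by positivity)))
        rw [sum_congr rfl (g := fun _ => (1 : ℝ) / ((r ^ M.K : ℕ) : ℝ) ^ U.card)
          fun T hT => by rw [(mem_filter.1 hT).2], sum_const, nsmul_eq_mul]
        gcongr
        exact card_fiber_clsOf U (mem_filter.1 hU).2 S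

end Model

open Model in
theorem hex_count {m r : ℕ} (s : PP (3 * m + 1) r) (𝒢 : Finset (PP (3 * m + 1) r))
    (h : Fintype.card (PP (3 * m + 1) r) ≤ 2 * 𝒢.card) :
    ∃ T : Finset ((Mod m).Obj r), (r ^ (3 * m + 1) / 2 - 5) ^ 5 ≤ T.card ∧ ∀ o ∈ T, ∃ f, o = hxO f ∧
      f 0 = s ∧ (∀ i, i ≠ 0 → f i ∈ 𝒢) ∧ Gen f := by
  classical
  let U := (𝒢.image Prod.fst).erase s.1
  have h1 : r ^ (3 * m + 1) / 2 - 1 ≤ U.card := by
    have a1 : 𝒢.card ≤ (𝒢.image Prod.fst).card * 2 := by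
      refine (card_le_card (t := 𝒢.image Prod.fst ×ˢ (univ : Finset Bool)) fun x hx => ?_).trans
        (by simp)
      exact mem_product.2 ⟨mem_image_of_mem _ hx, mem_univ _⟩
    have a2 := pred_card_le_card_erase (s := 𝒢.image Prod.fst) (a := s.1)
    simp only [Fintype.card_prod, Fintype.card_fin, Fintype.card_bool] at h
    simp only [U]
    omega
  have h2 : ∀ u : U, ∃ x ∈ 𝒢, x.1 = u.1 := fun u => mem_image.1 (mem_of_mem_erase u.2)
  choose g hg hg' using h2
  let F : (Fin 5 ↪ U) → Fin 6 → PP (3 * m + 1) r := fun e => Fin.cons s fun i => g (e i)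
  refine ⟨univ.image fun e => hxO (F e), ?_, fun o ho => ?_⟩
  · rw [card_image_of_injective _ fun e e' he => ?_, card_univ, Fintype.card_embedding_eq,
      Fintype.card_fin, Fintype.card_coe]
    · exact le_trans (Nat.pow_le_pow_left (by omega) 5) (Nat.pow_sub_le_descFactorial _ 5)
    · have he' : F e = F e' := by simpa [hxO] using he
      ext i
      have := congrArg (fun f => (f i.succ).1) he'
      simp only [F, Fin.cons_succ, hg'] at this
      rw [this]
  · obtain ⟨e, -, rfl⟩ := mem_image.1 ho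
    refine ⟨F e, rfl, rfl, fun i hi => ?_, fun i j hij => ?_⟩
    · obtain ⟨i, rfl⟩ := Fin.exists_succ_eq.2 hi
      exact hg _
    · have hne : ∀ i, (g (e i)).1 ≠ s.1 := fun i => by rw [hg']; exact ne_of_mem_erase (e i).2
      induction i using Fin.cases <;> induction j using Fin.cases
      · rfl
      · exact absurd hij.symm (hne _)
      · exact absurd hij (hne _)
      · simp only [F, Fin.cons_succ, hg'] at hij
        rw [e.injective (Subtype.ext hij)]

theorem hex_num {N r : ℕ} (hr : 40 ≤ r) (hN : r ^ 4 ≤ N) :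
    ((N * 2 * 2 ^ (N * 2) : ℕ) : ℝ) * (1 - 1 / (((2 * N) ^ 3 * r : ℕ) : ℝ)) ^ ((N / 2 - 5) ^ 5) ≤
      1 / r := by
  have h40 : 40 ^ 3 ≤ r ^ 3 := Nat.pow_le_pow_left hr 3
  have hrN : 64000 * r ≤ N := le_trans (by rw [pow_succ]; exact Nat.mul_le_mul_right _ h40) hN
  have hN0 : (0 : ℝ) < N := by exact_mod_cast (by omega : 0 < N)
  have hr0 : (0 : ℝ) < r := by exact_mod_cast (by omega : 0 < r)
  have hrN' : (64000 : ℝ) * r ≤ N := by exact_mod_cast hrN
  have h1 : (N : ℝ) / 4 ≤ ((N / 2 - 5 : ℕ) : ℝ) := by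
    rw [div_le_iff₀ (by norm_num)]; exact_mod_cast (by omega : N ≤ (N / 2 - 5) * 4)
  set q : ℝ := (((2 * N) ^ 3 * r : ℕ) : ℝ) with hq
  have hq' : q = 8 * N ^ 3 * r := by rw [hq]; push_cast; ring
  have hq1 : 1 ≤ q := by
    rw [hq]; exact_mod_cast Nat.mul_pos (pow_pos (by omega) 3) (by omega)
  have h2 : (1 - 1 / q) ^ ((N / 2 - 5) ^ 5) ≤ Real.exp (-(5 * N)) := by
    refine (pow_le_pow_left₀ (by rw [sub_nonneg, div_le_one (by linarith)]; exact hq1)
      (Real.one_sub_le_exp_neg _) _).trans ?_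
    rw [← Real.exp_nat_mul, Real.exp_le_exp, mul_neg, neg_le_neg_iff, mul_one_div,
      le_div_iff₀ (by linarith), hq', Nat.cast_pow]
    refine le_trans ?_ (pow_le_pow_left₀ (by positivity) h1 5)
    have : (0 : ℝ) < N ^ 4 := by positivity
    nlinarith
  have h3 : ((N * 2 * 2 ^ (N * 2) : ℕ) : ℝ) ≤ Real.exp (4 * N) := by
    rw [show (4 : ℝ) * N = N * 2 + ((N * 2 : ℕ) : ℝ) * 1 by push_cast; ring, Real.exp_add,
      Real.exp_nat_mul 1]
    push_cast
    gcongr
    · linarith [Real.add_one_le_exp ((N : ℝ) * 2)]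
    · linarith [Real.add_one_le_exp (1 : ℝ)]
  refine (mul_le_mul h3 h2 (pow_nonneg (by rw [sub_nonneg, div_le_one (by linarith)]; exact hq1) _)
    (by positivity)).trans ?_
  rw [← Real.exp_add, show (4 : ℝ) * N + -(5 * N) = -N by ring, Real.exp_neg, one_div]
  exact inv_anti₀ hr0 (by linarith [Real.add_one_le_exp (N : ℝ)])

open Model in
theorem hex_whp (m : ℕ) [NeZero m] : Model.WHP (M := Mod m) (fun r ω =>
    ∀ (s : PP (3 * m + 1) r) (𝒢 : Finset (PP (3 * m + 1) r)),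
      Fintype.card (PP (3 * m + 1) r) ≤ 2 * 𝒢.card →
      ∃ f : Fin 6 → PP (3 * m + 1) r, f 0 = s ∧ (∀ i, i ≠ 0 → f i ∈ 𝒢) ∧
        Gen f ∧ Model.Pres ω (hxO f)) := by
  classical
  refine WHP.of_le (fun r => 1 / r) ((eventually_ge_atTop 40).mono fun r hr => ?_)
    tendsto_one_div_atTop_nhds_zero_nat
  have hr0 : 0 < r := by omega
  have hm := NeZero.pos m
  choose! T hT hT' using fun z : PP (3 * m + 1) r × Finset (PP (3 * m + 1) r) => hex_count z.1 z.2
  let S : Finset (PP (3 * m + 1) r × Finset (PP (3 * m + 1) r)) :=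
    univ.filter fun z => Fintype.card (PP (3 * m + 1) r) ≤ 2 * z.2.card
  refine le_trans (expect_le_expect (g := fun ω : (Mod m).Om r => ∑ z ∈ S,
    if ∀ o ∈ T z, ¬ Pres ω o then (1 : ℝ) else 0) fun ω _ => ?_) ?_
  · split_ifs with h
    · exact sum_nonneg fun _ _ => by split_ifs <;> norm_num
    · simp only [not_forall] at h
      obtain ⟨s, 𝒢, h1, h2⟩ := h
      refine le_trans (by
        rw [if_pos]
        intro o ho h3
        obtain ⟨f, rfl, h4, h5, h6⟩ := hT' (s, 𝒢) h1 o ho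
        exact h2 ⟨f, h4, h5, h6, h3⟩) (single_le_sum (f := fun z =>
        if ∀ o ∈ T z, ¬ Pres ω o then (1 : ℝ) else 0) (fun _ _ => by split_ifs <;> norm_num)
        (mem_filter.2 ⟨mem_univ (s, 𝒢), h1⟩))
  · rw [expect_sum_comm]
    refine le_trans ?_ (hex_num (N := r ^ (3 * m + 1)) hr (Nat.pow_le_pow_right hr0 (by omega)))
    have hq : (1 : ℝ) ≤ (((2 * r ^ (3 * m + 1)) ^ 3 * r : ℕ) : ℝ) := by
      exact_mod_cast nn_pos (M := Mod m) hr0 (Sum.inr (Sum.inr ()))
    have hq0 : (0 : ℝ) ≤ 1 - 1 / (((2 * r ^ (3 * m + 1)) ^ 3 * r : ℕ) : ℝ) := by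
      rw [sub_nonneg, div_le_one (by linarith)]; exact hq
    refine (sum_le_card_nsmul _ _ ((1 - 1 / (((2 * r ^ (3 * m + 1)) ^ 3 * r : ℕ) : ℝ)) ^
      ((r ^ (3 * m + 1) / 2 - 5) ^ 5)) fun z hz => ?_).trans ?_
    · have hz := (mem_filter.1 hz).2
      rw [exp_abs hr0, prod_congr rfl (g := fun _ => 1 - 1 / (((2 * r ^ (3 * m + 1)) ^ 3 * r : ℕ) : ℝ))
        fun o ho => by obtain ⟨f, rfl, -⟩ := hT' z hz o ho; rfl, prod_const]
      exact pow_le_pow_of_le_one hq0 (sub_le_self _ (by positivity)) (hT z hz)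
    · rw [nsmul_eq_mul]
      refine mul_le_mul_of_nonneg_right ?_ (pow_nonneg hq0 _)
      exact_mod_cast (card_le_univ S).trans (by simp)

end Crest.Agent.R196
end

-- ▼ part PVa/R196/Cons
section

/-!
Task R196-P2: the second moment lemma `cons` and the weight of non-generic labellings.

`cons`: write `Wt J v φ = W' (φ ∘ ι) * W'' φ` with `W' = Wt J' v'`, `W'' = Wt (J \ J') v`.  For `ρ : V' → P` let `Y ρ` be the average
of `W'' φ` over the `φ` with `φ ∘ ι = ρ` (e.g. `φ = Function.extend ι ρ χ`, `χ : V → P` uniform; `(ρ, χ) ↦ φ` pushes the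
uniform measure to the uniform measure).  The difference in the statement is at most `TV ω = 𝔼 ρ, W' ρ * |Y ρ - 1|`.  By
Cauchy–Schwarz (or `|y| ≤ η + y²/η`) and `exp_pres` (objects of different colours are different):
`𝔼 ω, W' ρ = 1`, `𝔼 ω, W' ρ * Y ρ = 1`, `𝔼 ω, W' ρ * W'' φ * W'' φ' = ∏_{c ∈ J \ J', φ ∘ v c = φ' ∘ v c} nn c`, and
`∏_{c ∈ 𝒦₀} nn c - 1 ≤ ∑_{∅ ≠ 𝒦 ⊆ J \ J'} [φ = φ' on the variables of 𝒦] ∏_{c ∈ 𝒦} nn c`.  Two independent extensions of `ρ` agree on
the variables of `𝒦` with probability `n ^ (-#(variables of 𝒦 outside range ι))`, so by `Sur` each term is at most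
`r ^ card 𝒦 / n ≤ r ^ (K - 1) / (2 r ^ K)`.  Conclude with `WHP.of_expect`.

`gen_whp`: `𝔼 ω, Wt φ = 1`, and the fraction of non-generic `φ` is at most `card V ^ 2 / r ^ K`.
-/

set_option autoImplicit false

namespace Crest.Agent.R196

open Finset Filter Topology
open scoped BigOperators

theorem push {V V' P : Type} [Fintype V] [DecidableEq V] [Fintype V'] [DecidableEq V'] [Fintype P]
    [Nonempty P] (ι : V' → V) (hι : Function.Injective ι) (G : (V → P) → ℝ) :
    (𝔼 φ, G φ) = 𝔼 ρ : V' → P, 𝔼 χ : V → P, G (Function.extend ι ρ χ) := by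
  classical
  let e : (V' → P) × (V → P) → (V' → P) × (V → P) :=
    fun p => (p.2 ∘ ι, Function.extend ι p.1 p.2)
  have he : Function.Involutive e := by
    rintro ⟨ρ, χ⟩
    refine Prod.ext (funext fun a => hι.extend_apply _ _ a) (funext fun a => ?_)
    by_cases h : ∃ b, ι b = a
    · obtain ⟨b, rfl⟩ := h
      exact hι.extend_apply _ _ b
    · simp only [e, Function.extend_apply' _ _ _ h]
  have h1 := Fintype.expect_bijective e he.bijective (fun p => G (Function.extend ι p.1 p.2))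
    (fun p => G p.2) (fun _ => rfl)
  rw [← univ_product_univ, expect_product' univ univ (fun ρ χ => G (Function.extend ι ρ χ)),
    expect_product' univ univ (fun _ χ => G χ), Fintype.expect_const] at h1
  exact h1.symm

theorem exp_prod_fun {V P : Type} [Fintype V] [DecidableEq V] [Fintype P] [Nonempty P]
    (U : Finset V) (g : V → P → ℝ) :
    (𝔼 χ : V → P, ∏ a ∈ U, g a (χ a)) = ∏ a ∈ U, 𝔼 x, g a x := by
  classical
  have e1 : ∀ χ : V → P, ∏ a ∈ U, g a (χ a) = ∏ a, if a ∈ U then g a (χ a) else 1 := fun χ => by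
    rw [prod_ite_mem, univ_inter]
  simp only [e1, Fintype.expect_eq_sum_div_card]
  rw [← Fintype.piFinset_univ, ← prod_univ_sum (fun _ : V => (univ : Finset P))
    (fun a x => if a ∈ U then g a x else 1), Fintype.card_pi, Nat.cast_prod, ← prod_div_distrib,
    ← univ_inter U, ← prod_ite_mem, univ_inter]
  refine prod_congr rfl fun o _ => ?_
  have : (Fintype.card P : ℝ) ≠ 0 := by exact_mod_cast Fintype.card_ne_zero
  split_ifs
  · rfl
  · simp

theorem exp_agree {V P : Type} [Fintype V] [DecidableEq V] [Fintype P] [DecidableEq P] [Nonempty P]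
    (U : Finset V) (χ : V → P) :
    (𝔼 χ' : V → P, if ∀ a ∈ U, χ a = χ' a then (1 : ℝ) else 0) =
      (1 / (Fintype.card P : ℝ)) ^ U.card := by
  have := exp_prod_fun U (fun a x => if χ a = x then (1 : ℝ) else 0)
  refine (Eq.trans (expect_congr rfl fun χ' _ => ?_) this).trans ?_
  · rw [prod_boole]; congr
  · rw [← prod_const]
    refine prod_congr rfl fun a _ => ?_
    rw [Fintype.expect_eq_sum_div_card]
    simp

theorem abs_le_eta {η : ℝ} (hη : 0 < η) (y : ℝ) : |y| ≤ η + y ^ 2 / η := by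
  rw [← sq_abs y, ← sub_nonneg]
  have : η + |y| ^ 2 / η - |y| = ((η - |y|) ^ 2 + η * |y|) / η := by field_simp; ring
  rw [this]; positivity

namespace Model

variable {M : Model}

theorem Wt_nonneg {r : ℕ} (ω : M.Om r) {V : Type} (J : Finset M.Col)
    (v : (c : M.Col) → Fin (M.ar c) → V) (φ : V → PP M.K r) : 0 ≤ Wt ω J v φ := by
  unfold Wt
  exact prod_nonneg fun c _ => by split_ifs <;> positivity

theorem obj_inj {r : ℕ} (f : (c : M.Col) → Fin (M.ar c) → PP M.K r) :
    Function.Injective (fun c => (⟨c, f c⟩ : M.Obj r)) := fun _ _ h => congrArg Obj.c h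

open Classical in
theorem Wt_eq {r : ℕ} (ω : M.Om r) {V : Type} (J : Finset M.Col)
    (v : (c : M.Col) → Fin (M.ar c) → V) (φ : V → PP M.K r) :
    Wt ω J v φ = ∏ o ∈ J.image (fun c => (⟨c, fun s => φ (v c s)⟩ : M.Obj r)),
      if Pres ω o then (M.nn r o.c : ℝ) else 0 := by
  rw [prod_image (obj_inj (fun c s => φ (v c s))).injOn]; rfl

theorem exp_Wt {r : ℕ} (hr : 0 < r) {V : Type} (J : Finset M.Col)
    (v : (c : M.Col) → Fin (M.ar c) → V) (φ : V → PP M.K r) : (𝔼 ω : M.Om r, Wt ω J v φ) = 1 := by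
  simp only [Wt_eq]; exact exp_pres hr _

open Classical in
theorem exp_Wt2 {r : ℕ} (hr : 0 < r) {V : Type} (J L : Finset M.Col)
    (v : (c : M.Col) → Fin (M.ar c) → V) (φ φ' : V → PP M.K r) :
    (𝔼 ω : M.Om r, Wt ω J v φ * Wt ω L v φ') ≤
      ∏ c ∈ L, (1 + if ∀ s, φ (v c s) = φ' (v c s) then (M.nn r c : ℝ) else 0) := by
  set T1 := J.image (fun c => (⟨c, fun s => φ (v c s)⟩ : M.Obj r)) with hT1
  set T2 := L.image (fun c => (⟨c, fun s => φ' (v c s)⟩ : M.Obj r)) with hT2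
  have e1 : ∀ ω : M.Om r, Wt ω J v φ * Wt ω L v φ' =
      (∏ o ∈ T1 ∪ T2, if Pres ω o then (M.nn r o.c : ℝ) else 0) *
        ∏ o ∈ T1 ∩ T2, (M.nn r o.c : ℝ) := fun ω => by
    rw [Wt_eq, Wt_eq, ← hT1, ← hT2, ← prod_union_inter]
    by_cases h : ∀ o ∈ T1 ∩ T2, Pres ω o
    · congr 1
      exact prod_congr rfl fun o ho => if_pos (h o ho)
    · push Not at h
      obtain ⟨o, ho, h⟩ := h
      rw [prod_eq_zero (mem_union_left _ (mem_inter.1 ho).1) (if_neg h), zero_mul, zero_mul]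
  simp only [e1]
  rw [← expect_mul, exp_pres hr, one_mul, inter_comm, ← prod_ite_mem, hT2,
    prod_image (obj_inj (fun c s => φ' (v c s))).injOn]
  refine prod_le_prod (fun c _ => by split_ifs <;> positivity) fun c _ => ?_
  by_cases h : (⟨c, fun s => φ' (v c s)⟩ : M.Obj r) ∈ T1
  · obtain ⟨c', _, h'⟩ := mem_image.1 h
    obtain rfl : c' = c := congrArg Obj.c h'
    have h2 : (fun s => φ (v c' s)) = fun s => φ' (v c' s) := by simpa using h'
    rw [if_pos h, if_pos (fun s => congrFun h2 s)]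
    simp
  · rw [if_neg h]
    split_ifs
    · simp
    · simp

theorem card_PP (K r : ℕ) : Fintype.card (PP K r) = 2 * r ^ K := by simp [mul_comm]

theorem pp_nonempty {K r : ℕ} (hr : 0 < r) : Nonempty (PP K r) := ⟨(⟨0, by positivity⟩, true)⟩

open Classical in
theorem second {V V' : Type} [Fintype V] [DecidableEq V] [Fintype V'] [DecidableEq V'] (ι : V' → V)
    (J L : Finset M.Col) (hK : L.card < M.K)
    (v : (c : M.Col) → Fin (M.ar c) → V) (hS : Sur L v (univ.image ι)) {r : ℕ} (hr : 0 < r)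
    (ρ : V' → PP M.K r) (χ : V → PP M.K r) :
    (𝔼 χ', 𝔼 ω : M.Om r, Wt ω J v (Function.extend ι ρ χ) * Wt ω L v (Function.extend ι ρ χ')) ≤
      1 + 2 ^ L.card / r := by
  have := pp_nonempty (K := M.K) hr
  have hr' : (1 : ℝ) ≤ r := by exact_mod_cast hr
  refine (expect_le_expect fun χ' _ => exp_Wt2 hr J L v _ _).trans ?_
  simp only [prod_one_add]
  rw [expect_sum_comm]
  have key : ∀ 𝒦 ∈ L.powerset, (𝔼 χ' : V → PP M.K r, ∏ c ∈ 𝒦,
      if ∀ s, Function.extend ι ρ χ (v c s) = Function.extend ι ρ χ' (v c s)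
        then (M.nn r c : ℝ) else 0) ≤ (if 𝒦 = ∅ then 1 else 0) + 1 / r := by
    intro 𝒦 h𝒦
    rcases 𝒦.eq_empty_or_nonempty with rfl | hne
    · simp
    rw [if_neg hne.ne_empty, zero_add]
    have hL := mem_powerset.1 h𝒦
    have h1 := hS 𝒦 hL hne
    set U := 𝒦.biUnion (fun c => univ.image (v c)) \ univ.image ι with hU
    have h2 : ∀ χ' : V → PP M.K r, (∏ c ∈ 𝒦,
        if ∀ s, Function.extend ι ρ χ (v c s) = Function.extend ι ρ χ' (v c s)
          then (M.nn r c : ℝ) else 0) ≤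
        (if ∀ a ∈ U, χ a = χ' a then (1 : ℝ) else 0) * ∏ c ∈ 𝒦, (M.nn r c : ℝ) := by
      intro χ'
      by_cases h : ∀ a ∈ U, χ a = χ' a
      · rw [if_pos h, one_mul]
        exact prod_le_prod (fun c _ => by split_ifs <;> positivity)
          fun c _ => by split_ifs <;> first | rfl | positivity
      · rw [if_neg h, zero_mul]
        push Not at h
        obtain ⟨a, ha, h⟩ := h
        obtain ⟨ha1, ha2⟩ := mem_sdiff.1 ha
        obtain ⟨c, hc, ha1⟩ := mem_biUnion.1 ha1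
        obtain ⟨s, _, rfl⟩ := mem_image.1 ha1
        have h3 : ¬ ∃ b, ι b = v c s := fun ⟨b, hb⟩ => ha2 (mem_image.2 ⟨b, mem_univ _, hb⟩)
        refine (prod_eq_zero hc (if_neg fun h4 => h ?_)).le
        have := h4 s
        rwa [Function.extend_apply' _ _ _ h3, Function.extend_apply' _ _ _ h3] at this
    refine (expect_le_expect fun χ' _ => h2 χ').trans ?_
    rw [← expect_mul, exp_agree, card_PP]
    simp only [nn]
    push_cast
    rw [prod_mul_distrib, prod_pow_eq_pow_sum, prod_const]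
    set n : ℝ := 2 * (r : ℝ) ^ M.K with hn
    have hrK : (r : ℝ) ^ 𝒦.card * r ≤ n := by
      rw [← pow_succ]
      have : (r : ℝ) ^ (𝒦.card + 1) ≤ r ^ M.K :=
        pow_le_pow_right₀ hr' (lt_of_le_of_lt (card_le_card hL) hK)
      have : (0 : ℝ) ≤ r ^ M.K := by positivity
      linarith
    have hn1 : 1 ≤ n := le_trans (by
      have : (1 : ℝ) ≤ r ^ 𝒦.card := one_le_pow₀ hr'
      nlinarith) hrK
    have h5 : (1 / n) ^ U.card ≤ (1 / n) ^ (∑ c ∈ 𝒦, M.kk c + 1) :=
      pow_le_pow_of_le_one (by positivity) (by rw [div_le_one (by positivity)]; exact hn1) h1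
    refine (mul_le_mul_of_nonneg_right h5 (by positivity)).trans ?_
    have : (1 / n) ^ (∑ c ∈ 𝒦, M.kk c + 1) * (n ^ (∑ c ∈ 𝒦, M.kk c) * (r : ℝ) ^ 𝒦.card) =
        (r : ℝ) ^ 𝒦.card / n := by
      rw [pow_succ, one_div_pow]; field_simp
    rw [this, div_le_div_iff₀ (by positivity) (by positivity), one_mul]
    exact hrK
  refine (sum_le_sum key).trans ?_
  rw [sum_add_distrib, sum_ite_eq' L.powerset ∅ (fun _ => (1 : ℝ)), if_pos (empty_mem_powerset L),
    sum_const, card_powerset]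
  simp [div_eq_mul_inv]

theorem cons {V V' : Type} [Fintype V] [DecidableEq V] [Fintype V'] [DecidableEq V'] (ι : V' → V)
    (hι : Function.Injective ι) (J J' : Finset M.Col) (hJ : J' ⊆ J) (hK : J.card < M.K)
    (v : (c : M.Col) → Fin (M.ar c) → V) (v' : (c : M.Col) → Fin (M.ar c) → V')
    (hv : ∀ c ∈ J', ∀ s, v c s = ι (v' c s)) (hS : Sur (J \ J') v (univ.image ι))
    {δ : ℝ} (hδ : 0 < δ) :
    WHP (fun r (ω : M.Om r) => ∀ F : (V' → PP M.K r) → ℝ, (∀ ρ, |F ρ| ≤ 1) →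
      |(𝔼 φ, Wt ω J v φ * F (φ ∘ ι)) - 𝔼 ρ, Wt ω J' v' ρ * F ρ| ≤ δ) := by
  have hL : (J \ J').card < M.K := lt_of_le_of_lt (card_le_card sdiff_subset) hK
  have split : ∀ r (ω : M.Om r) ρ (χ : V → PP M.K r), Wt ω J v (Function.extend ι ρ χ) =
      Wt ω J' v' ρ * Wt ω (J \ J') v (Function.extend ι ρ χ) := by
    intro r ω ρ χ
    unfold Wt
    rw [← prod_sdiff hJ, mul_comm]
    congr 1
    refine prod_congr rfl fun c hc => ?_
    have : (fun s => Function.extend ι ρ χ (v c s)) = fun s => ρ (v' c s) :=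
      funext fun s => by rw [hv c hc, hι.extend_apply]
    rw [this]
  let Y : (r : ℕ) → M.Om r → (V' → PP M.K r) → ℝ := fun r ω ρ =>
    𝔼 χ : V → PP M.K r, Wt ω (J \ J') v (Function.extend ι ρ χ)
  let b : ℕ → ℝ := fun r => 2 ^ (J \ J').card / r
  have hb0 : Tendsto b atTop (𝓝 0) := tendsto_const_div_atTop_nhds_zero_nat _
  have main := WHP.of_expect (M := M) (fun r ω => 𝔼 ρ, Wt ω J' v' ρ * |Y r ω ρ - 1|)
    (fun r ω => expect_nonneg fun ρ _ => mul_nonneg (Wt_nonneg _ _ _ _) (abs_nonneg _))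
    (fun r => 2 * √(b r)) ?_ (by simpa using hb0.sqrt.const_mul 2) hδ
  · refine main.mono' ((eventually_gt_atTop 0).mono fun r hr ω h F hF => le_trans ?_ h)
    have := pp_nonempty (K := M.K) hr
    rw [push ι hι, ← expect_sub_distrib]
    refine (abs_expect_le _ _).trans (expect_le_expect fun ρ _ => ?_)
    have e : (𝔼 χ : V → PP M.K r, Wt ω J v (Function.extend ι ρ χ) *
        F (Function.extend ι ρ χ ∘ ι)) - Wt ω J' v' ρ * F ρ =
        Wt ω J' v' ρ * (Y r ω ρ - 1) * F ρ := by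
      simp only [split, Function.extend_comp hι, Y]
      rw [← expect_mul, ← mul_expect]; ring
    rw [e, abs_mul, abs_mul, abs_of_nonneg (Wt_nonneg _ _ _ _)]
    exact mul_le_of_le_one_right (mul_nonneg (Wt_nonneg _ _ _ _) (abs_nonneg _)) (hF ρ)
  refine (eventually_gt_atTop 0).mono fun r hr => ?_
  have := pp_nonempty (K := M.K) hr
  have hb : 0 < b r := by positivity
  have hη : 0 < √(b r) := Real.sqrt_pos.2 hb
  rw [expect_comm]
  refine expect_le univ_nonempty fun ρ _ => ?_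
  have m1 : (𝔼 ω : M.Om r, Wt ω J' v' ρ * Y r ω ρ) = 1 := by
    simp only [Y, mul_expect, ← split]
    rw [expect_comm]
    simp only [exp_Wt hr, Fintype.expect_const]
  have m2 : (𝔼 ω : M.Om r, Wt ω J' v' ρ * Y r ω ρ * Y r ω ρ) ≤ 1 + b r := by
    have e : ∀ ω : M.Om r, Wt ω J' v' ρ * Y r ω ρ * Y r ω ρ = 𝔼 χ, 𝔼 χ',
        Wt ω J v (Function.extend ι ρ χ) * Wt ω (J \ J') v (Function.extend ι ρ χ') := fun ω => by
      simp only [Y, split, ← mul_expect, ← expect_mul]
    simp only [e]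
    rw [expect_comm]
    refine expect_le univ_nonempty fun χ _ => ?_
    rw [expect_comm]
    exact second ι J (J \ J') hL v hS hr ρ χ
  have e2 : ∀ ω : M.Om r, Wt ω J' v' ρ * |Y r ω ρ - 1| ≤ √(b r) * Wt ω J' v' ρ +
      (Wt ω J' v' ρ * Y r ω ρ * Y r ω ρ - 2 * (Wt ω J' v' ρ * Y r ω ρ) + Wt ω J' v' ρ) / √(b r) :=
    fun ω => (mul_le_mul_of_nonneg_left (abs_le_eta hη _) (Wt_nonneg _ _ _ _)).trans (le_of_eq (by ring))
  refine (expect_le_expect fun ω _ => e2 ω).trans ?_
  rw [expect_add_distrib, ← expect_div, expect_add_distrib, expect_sub_distrib, ← mul_expect,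
    ← mul_expect, m1, exp_Wt hr]
  have h3 : ((𝔼 ω : M.Om r, Wt ω J' v' ρ * Y r ω ρ * Y r ω ρ) - 2 * 1 + 1) / √(b r) ≤ √(b r) := by
    rw [div_le_iff₀ hη, Real.mul_self_sqrt hb.le]; linarith
  linarith

open Classical in
theorem gen_whp {V : Type} [Fintype V] [DecidableEq V] (hK : 0 < M.K) (J : Finset M.Col)
    (v : (c : M.Col) → Fin (M.ar c) → V) {δ : ℝ} (hδ : 0 < δ) :
    WHP (fun r (ω : M.Om r) => (𝔼 φ, Wt ω J v φ * (if Gen φ then 0 else 1)) ≤ δ) := by
  refine WHP.of_expect (M := M) _ (fun r ω => expect_nonneg fun φ _ =>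
    mul_nonneg (Wt_nonneg _ _ _ _) (by split_ifs <;> norm_num))
    (fun r => (Fintype.card V : ℝ) ^ 2 / r) ?_ (tendsto_const_div_atTop_nhds_zero_nat _) hδ
  refine (eventually_gt_atTop 0).mono fun r hr => ?_
  have := pp_nonempty (K := M.K) hr
  have hr' : (1 : ℝ) ≤ r := by exact_mod_cast hr
  rw [expect_comm]
  simp only [← expect_mul, exp_Wt hr, one_mul]
  have h1 : ∀ φ : V → PP M.K r, (if Gen φ then (0 : ℝ) else 1) ≤
      ∑ a, ∑ b, if a ≠ b ∧ (φ a).1 = (φ b).1 then 1 else 0 := by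
    intro φ
    have h0 : ∀ a b, (0 : ℝ) ≤ if a ≠ b ∧ (φ a).1 = (φ b).1 then 1 else 0 := fun a b => by
      split_ifs <;> norm_num
    split_ifs with h
    · exact sum_nonneg fun a _ => sum_nonneg fun b _ => h0 a b
    · unfold Gen Function.Injective at h
      push Not at h
      obtain ⟨a, b, h1, h2⟩ := h
      refine le_trans ?_ (single_le_sum (fun a _ => sum_nonneg fun b _ => h0 a b) (mem_univ a))
      refine le_trans ?_ (single_le_sum (fun b _ => h0 a b) (mem_univ b))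
      rw [if_pos ⟨h2, h1⟩]
  have h2 : ∀ a b : V, (𝔼 φ : V → PP M.K r,
      if a ≠ b ∧ (φ a).1 = (φ b).1 then (1 : ℝ) else 0) ≤ 1 / r := by
    intro a b
    by_cases hab : a = b
    · simp [hab]
    rw [push (fun _ : Unit => a) (fun _ _ _ => rfl), expect_comm]
    refine expect_le univ_nonempty fun χ _ => ?_
    have e1 : ∀ ρ : Unit → PP M.K r, Function.extend (fun _ : Unit => a) ρ χ a = ρ () := fun ρ =>
      Function.Injective.extend_apply (f := fun _ : Unit => a) (fun _ _ _ => rfl) ρ χ ()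
    have e2 : ∀ ρ : Unit → PP M.K r, Function.extend (fun _ : Unit => a) ρ χ b = χ b := fun ρ =>
      Function.extend_apply' _ _ _ (fun ⟨_, h⟩ => hab h)
    simp only [e1, e2]
    rw [Fintype.expect_equiv (Equiv.funUnique Unit (PP M.K r)) _
      (fun x => if x.1 = (χ b).1 then (1 : ℝ) else 0) (fun ρ => by simp [hab]),
      Fintype.expect_eq_sum_div_card, card_PP, Fintype.sum_prod_type_right]
    simp only [sum_ite_eq', mem_univ, if_true, sum_const, card_univ, Fintype.card_bool]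
    have : (r : ℝ) ≤ r ^ M.K := le_self_pow₀ hr' hK.ne'
    push_cast
    rw [div_le_div_iff₀ (by positivity) (by positivity)]
    simp only [nsmul_eq_mul]; push_cast; linarith
  refine (expect_le_expect fun φ _ => h1 φ).trans ?_
  rw [expect_sum_comm]
  refine (sum_le_sum fun a _ => (expect_sum_comm _ _ _).le.trans
    (sum_le_sum fun b _ => h2 a b)).trans (le_of_eq ?_)
  simp [sq, div_eq_mul_inv, mul_assoc]

end Model

end Crest.Agent.R196
end

-- ▼ part PVa/R196/AmalA

/-!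
Task R196-P3a: amalgams of patterns.
-/

set_option autoImplicit false

namespace Crest.Agent.R196

open Finset Filter Topology
open scoped BigOperators

/-- The inclusion of the `i`-th copy into the amalgam. -/
def am {m : ℕ} [NeZero m] {V : Type} [DecidableEq V] (Z : Finset V) (i : Fin m) (a : V) : Fin m × V :=
  if a ∈ Z then (0, a) else (i, a)

theorem am_snd {m : ℕ} [NeZero m] {V : Type} [DecidableEq V] (Z : Finset V) (i : Fin m) (a : V) :
    (am Z i a).2 = a := by
  unfold am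
  split_ifs <;> rfl

theorem am_inj {m : ℕ} [NeZero m] {V : Type} [DecidableEq V] (Z : Finset V) (i : Fin m) :
    Function.Injective (am Z i) := fun a b h => by
  rw [← am_snd Z i a, h, am_snd]

theorem am_of_mem {m : ℕ} [NeZero m] {V : Type} [DecidableEq V] {Z : Finset V} {a : V} (h : a ∈ Z)
    (i j : Fin m) : am Z i a = am Z j a := by
  simp only [am, if_pos h]

theorem am_of_not {m : ℕ} [NeZero m] {V : Type} [DecidableEq V] {Z : Finset V} {a : V} (h : a ∉ Z)
    (i : Fin m) : am Z i a = (i, a) := by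
  simp only [am, if_neg h]

theorem card_glue {m : ℕ} [NeZero m] {V : Type} [DecidableEq V] (Z : Finset V) (i₀ : Fin m)
    (A : Fin m → Finset V) (T : Finset (Fin m × V)) (h1 : ∀ j, ∀ b ∈ A j, am Z j b ∈ T)
    (h2 : ∀ j, j ≠ i₀ → ∀ b ∈ A j, b ∉ Z) : ∑ j, (A j).card ≤ T.card := by
  rw [← Finset.card_sigma]
  refine card_le_card_of_injOn (fun z => am Z z.1 z.2) ?_ ?_
  · intro z hz
    exact h1 _ _ (mem_sigma.mp hz).2
  · rintro ⟨j, b⟩ hz ⟨j', b'⟩ hz' e
    have hb := (mem_sigma.mp hz).2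
    have hb' := (mem_sigma.mp hz').2
    simp only at e hb hb'
    obtain rfl : b = b' := by rw [← am_snd Z j b, e, am_snd]
    by_cases h : b ∈ Z
    · have a1 : j = i₀ := by
        by_contra hc
        exact h2 j hc b hb h
      have a2 : j' = i₀ := by
        by_contra hc
        exact h2 j' hc b hb' h
      rw [a1, a2]
    · rw [am_of_not h, am_of_not h] at e
      obtain rfl : j = j' := congrArg Prod.fst e
      rfl

namespace Model

variable {M : Model}

theorem unif_whp {V V' : Type} [Fintype V] [DecidableEq V] [Fintype V'] [DecidableEq V'] [Nonempty V']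
    (ι : V' → V) (hι : Function.Injective ι) (J : Finset M.Col) (hK : J.card < M.K)
    (v : (c : M.Col) → Fin (M.ar c) → V) (hS : Sur J v (univ.image ι)) {δ : ℝ} (hδ : 0 < δ) :
    WHP (fun r (ω : M.Om r) => ∀ F : (V' → PP M.K r) → ℝ, (∀ ρ, |F ρ| ≤ 1) →
      |(𝔼 φ, Wt ω J v φ * F (φ ∘ ι)) - 𝔼 ρ, F ρ| ≤ δ) := by
  refine (cons ι hι J ∅ (empty_subset _) hK v (fun _ _ => Classical.arbitrary _) (by simp)
    (by rwa [sdiff_empty]) hδ).mono fun r ω h F hF => ?_
  simpa only [Wt, prod_empty, one_mul] using h F hF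

theorem unif1_whp {V : Type} [Fintype V] [DecidableEq V] (J : Finset M.Col) (hK : J.card < M.K)
    (v : (c : M.Col) → Fin (M.ar c) → V) (a : V) (hS : Sur J v {a}) {δ : ℝ} (hδ : 0 < δ) :
    WHP (fun r (ω : M.Om r) => Unif1 (Wt ω J v) a δ) := by
  refine (unif_whp (fun _ : Unit => a) (fun _ _ _ => rfl) J hK v (by simpa using hS) hδ).mono
    fun r ω h F hF => ?_
  have h1 := h (fun ρ => F (ρ ())) (fun ρ => hF _)
  rwa [Fintype.expect_equiv (Equiv.funUnique Unit _) (fun ρ => F (ρ ())) F (fun _ => rfl)] at h1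

theorem unif2_whp {V : Type} [Fintype V] [DecidableEq V] (J : Finset M.Col) (hK : J.card < M.K)
    (v : (c : M.Col) → Fin (M.ar c) → V) (a b : V) (hab : a ≠ b) (hS : Sur J v {a, b}) {δ : ℝ}
    (hδ : 0 < δ) : WHP (fun r (ω : M.Om r) => Unif2 (Wt ω J v) a b δ) := by
  refine (unif_whp ![a, b] (by
    intro i j h
    fin_cases i <;> fin_cases j <;> simp_all [eq_comm]) J hK v (by
      have : univ.image ![a, b] = {a, b} := by
        ext x
        simp [Fin.exists_fin_two, eq_comm]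
      rwa [this]) hδ).mono fun r ω h F hF => ?_
  have h1 := h (fun ρ => F (ρ 0) (ρ 1)) (fun ρ => hF _ _)
  rwa [Fintype.expect_equiv (finTwoArrowEquiv _) (fun ρ => F (ρ 0) (ρ 1)) (fun z => F z.1 z.2)
    (fun _ => rfl),
    ← univ_product_univ, expect_product] at h1

theorem samp_whp {m : ℕ} [NeZero m] {V : Type} [Fintype V] [DecidableEq V] (J₀ : Finset M.Col)
    (J₁ : Fin m → Finset M.Col) (hd₀ : ∀ i, Disjoint J₀ (J₁ i))
    (hd₁ : ∀ i j, i ≠ j → Disjoint (J₁ i) (J₁ j)) (hK : J₀.card + ∑ i, (J₁ i).card < M.K)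
    (v : (c : M.Col) → Fin (M.ar c) → V) (Z : Finset V) (hZ : ∀ c ∈ J₀, ∀ s, v c s ∈ Z)
    (e e' : V) (he : e ∉ Z) (he' : e' ∉ Z) (h1 : ∀ i, Sur (J₁ i) v Z)
    (h2 : ∀ i, Sur (J₀ ∪ J₁ i) v {e}) (h2' : ∀ i, Sur (J₀ ∪ J₁ i) v {e'}) {δ : ℝ} (hδ : 0 < δ) :
    WHP (fun r (ω : M.Om r) => Samp (fun i => Wt ω (J₀ ∪ J₁ i) v) Z e e' δ) := by
  have hex : ∀ c : M.Col, ∃ j : Fin m, ∀ i, c ∈ J₁ i → j = i := by
    intro c
    by_cases h : ∃ i, c ∈ J₁ i
    · obtain ⟨i, hi⟩ := h
      refine ⟨i, fun j hj => ?_⟩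
      by_contra hc
      exact disjoint_left.mp (hd₁ i j hc) hi hj
    · exact ⟨0, fun i hi => absurd ⟨i, hi⟩ h⟩
  choose own hown using hex
  let J := J₀ ∪ univ.biUnion J₁
  have hJ : J.card < M.K :=
    lt_of_le_of_lt ((card_union_le _ _).trans (Nat.add_le_add_left card_biUnion_le _)) hK
  let v2 : (c : M.Col) → Fin (M.ar c) → Fin m × V := fun c s => am Z (own c) (v c s)
  -- the general surplus estimate
  have key : ∀ (i₀ : Fin m) (𝒦 : Finset M.Col), 𝒦 ⊆ J → ∃ 𝒦' : Fin m → Finset M.Col,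
      ∑ c ∈ 𝒦, M.kk c = ∑ j, ∑ c ∈ 𝒦' j, M.kk c ∧ (∀ j, 𝒦' j ⊆ 𝒦) ∧ 𝒦' i₀ ⊆ J₀ ∪ J₁ i₀ ∧
      (∀ j, j ≠ i₀ → 𝒦' j ⊆ J₁ j) ∧ (∀ c ∈ 𝒦, ∃ j, c ∈ 𝒦' j) ∧
      (∀ c ∈ 𝒦, c ∈ J₀ ∪ J₁ i₀ → c ∈ 𝒦' i₀) ∧
      ∀ j, ∀ b ∈ (𝒦' j).biUnion (fun c => univ.image (v c)),
        am Z j b ∈ 𝒦.biUnion (fun c => univ.image (v2 c)) := by
    intro i₀ 𝒦 h𝒦
    let ow : M.Col → Fin m := fun c => if c ∈ J₀ then i₀ else own c
    have how : ∀ c ∈ 𝒦, c ∉ J₀ → c ∈ J₁ (own c) := by
      intro c hc h0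
      rcases mem_union.mp (h𝒦 hc) with h | h
      · exact absurd h h0
      · obtain ⟨i, _, hi⟩ := mem_biUnion.mp h
        rwa [hown c i hi]
    refine ⟨fun j => 𝒦.filter (fun c => ow c = j), (sum_fiberwise _ _ _).symm,
      fun j => filter_subset _ _, fun c hc => ?_, fun j hj c hc => ?_,
      fun c hc => ⟨ow c, mem_filter.mpr ⟨hc, rfl⟩⟩, fun c hc h => mem_filter.mpr ⟨hc, ?_⟩,
      fun j b hb => ?_⟩
    · obtain ⟨a1, a2⟩ := mem_filter.mp hc
      by_cases h0 : c ∈ J₀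
      · exact mem_union_left _ h0
      · simp only [ow, if_neg h0] at a2
        exact mem_union_right _ (a2 ▸ how c a1 h0)
    · obtain ⟨a1, a2⟩ := mem_filter.mp hc
      by_cases h0 : c ∈ J₀
      · simp only [ow, if_pos h0] at a2
        exact absurd a2.symm hj
      · simp only [ow, if_neg h0] at a2
        exact a2 ▸ how c a1 h0
    · by_cases h0 : c ∈ J₀
      · simp only [ow, if_pos h0]
      · simp only [ow, if_neg h0]
        exact hown c i₀ ((mem_union.mp h).resolve_left h0)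
    · obtain ⟨c, hc, hb⟩ := mem_biUnion.mp hb
      obtain ⟨s, _, rfl⟩ := mem_image.mp hb
      obtain ⟨a1, a2⟩ := mem_filter.mp hc
      refine mem_biUnion.mpr ⟨c, a1, mem_image.mpr ⟨s, mem_univ _, ?_⟩⟩
      by_cases h0 : c ∈ J₀
      · exact am_of_mem (hZ c h0 s) _ _
      · simp only [ow, if_neg h0] at a2
        simp only [v2, a2]
  have hA : ∀ i, WHP (fun r (ω : M.Om r) => ∀ F : (V → PP M.K r) → ℝ, (∀ ρ, |F ρ| ≤ 1) →
      |(𝔼 φ, Wt ω J v2 φ * F (φ ∘ am Z i)) - 𝔼 ρ, Wt ω (J₀ ∪ J₁ i) v ρ * F ρ| ≤ δ) := by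
    intro i
    refine cons (am Z i) (am_inj Z i) J (J₀ ∪ J₁ i)
      (union_subset_union_right (subset_biUnion_of_mem J₁ (mem_univ i))) hJ v2 v ?_ ?_ hδ
    · intro c hc s
      rcases mem_union.mp hc with h | h
      · exact am_of_mem (hZ c h s) _ _
      · simp only [v2, hown c i h]
    · intro 𝒦 h𝒦 hne
      obtain ⟨𝒦', k1, k2, k3, k4, k5, -, k7⟩ := key i 𝒦 (h𝒦.trans sdiff_subset)
      have hi : 𝒦' i = ∅ := eq_empty_of_forall_notMem fun c hc =>
        (mem_sdiff.mp (h𝒦 (k2 i hc))).2 (k3 hc)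
      refine le_trans ?_ (card_glue Z i (fun j => (𝒦' j).biUnion (fun c => univ.image (v c)) \ Z) _
        (fun j b hb => ?_) (fun j _ b hb => (mem_sdiff.mp hb).2))
      · rw [k1]
        obtain ⟨c, hc⟩ := hne
        obtain ⟨j, hj⟩ := k5 c hc
        have hji : j ≠ i := by
          rintro rfl
          rw [hi] at hj
          simp at hj
        refine Nat.succ_le_of_lt (sum_lt_sum (fun l _ => ?_)
          ⟨j, mem_univ _, Nat.lt_of_succ_le (h1 j _ (k4 j hji) ⟨c, hj⟩)⟩)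
        rcases (𝒦' l).eq_empty_or_nonempty with h0 | h0
        · rw [h0]; simp
        · have hl : l ≠ i := by
            rintro rfl
            exact h0.ne_empty hi
          exact (Nat.le_succ _).trans (h1 l _ (k4 l hl) h0)
      · obtain ⟨b1, b2⟩ := mem_sdiff.mp hb
        refine mem_sdiff.mpr ⟨k7 j b b1, fun h => ?_⟩
        obtain ⟨a, _, ha⟩ := mem_image.mp h
        obtain rfl : a = b := by rw [← am_snd Z i a, ha, am_snd]
        rw [am_of_not b2, am_of_not b2] at ha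
        obtain rfl : i = j := congrArg Prod.fst ha
        rw [hi] at b1
        simp at b1
  have hB : ∀ a, (∀ i, Sur (J₀ ∪ J₁ i) v {a}) →
      WHP (fun r (ω : M.Om r) => ∀ F : (Fin m → PP M.K r) → ℝ, (∀ ρ, |F ρ| ≤ 1) →
      |(𝔼 φ, Wt ω J v2 φ * F (φ ∘ fun i => (i, a))) - 𝔼 ρ, F ρ| ≤ δ) := by
    intro a ha
    refine unif_whp (fun i : Fin m => (i, a)) (fun i j h => congrArg Prod.fst h) J hJ v2 ?_ hδ
    intro 𝒦 h𝒦 hne
    obtain ⟨c, hc⟩ := hne
    obtain ⟨i, hi⟩ : ∃ i, c ∈ J₀ ∪ J₁ i := by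
      rcases mem_union.mp (h𝒦 hc) with h | h
      · exact ⟨0, mem_union_left _ h⟩
      · obtain ⟨i, _, hi⟩ := mem_biUnion.mp h
        exact ⟨i, mem_union_right _ hi⟩
    obtain ⟨𝒦', k1, k2, k3, k4, -, k6, k7⟩ := key i 𝒦 h𝒦
    refine le_trans ?_ (card_glue Z i (fun j => ((𝒦' j).biUnion (fun c => univ.image (v c)) \
      (if j = i then ∅ else Z)) \ {a}) _ (fun j b hb => ?_) (fun j hj b hb => ?_))
    · rw [k1]
      refine Nat.succ_le_of_lt (sum_lt_sum (fun l _ => ?_) ⟨i, mem_univ _, ?_⟩)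
      · rcases (𝒦' l).eq_empty_or_nonempty with h0 | h0
        · rw [h0]; simp
        · by_cases hl : l = i
          · subst hl
            rw [if_pos rfl, sdiff_empty]
            exact (Nat.le_succ _).trans (ha l _ k3 h0)
          · rw [if_neg hl]
            have a1 := h1 l _ (k4 l hl) h0
            have a2 := le_card_sdiff ({a} : Finset V)
              ((𝒦' l).biUnion (fun c => univ.image (v c)) \ Z)
            rw [card_singleton] at a2
            omega
      · rw [if_pos rfl, sdiff_empty]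
        exact ha i _ k3 ⟨c, k6 c hc hi⟩
    · obtain ⟨b1, b2⟩ := mem_sdiff.mp hb
      refine mem_sdiff.mpr ⟨k7 j b (mem_sdiff.mp b1).1, fun h => b2 ?_⟩
      obtain ⟨l, _, hl⟩ := mem_image.mp h
      rw [mem_singleton, ← am_snd Z j b, ← hl]
    · have := (Finset.mem_sdiff.mp (Finset.mem_sdiff.mp hb).1).2
      rwa [if_neg hj] at this
  refine (((WHP.forall hA).and (hB e h2)).and (hB e' h2')).mono ?_
  rintro r ω ⟨⟨a1, a2⟩, a3⟩
  have hsum : ∀ G : (Fin m × V → PP M.K r) → ℝ,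
      ∑ ψ, Wt ω J v2 ψ / Fintype.card (Fin m × V → PP M.K r) * G ψ = 𝔼 ψ, Wt ω J v2 ψ * G ψ := by
    intro G
    rw [Fintype.expect_eq_sum_div_card, sum_div]
    exact sum_congr rfl fun ψ _ => by ring
  refine ⟨Fin m × V → PP M.K r, inferInstance,
    fun ψ => Wt ω J v2 ψ / Fintype.card (Fin m × V → PP M.K r), fun ψ i => ψ ∘ am Z i,
    fun ψ => div_nonneg (Wt_nonneg _ _ _ _) (Nat.cast_nonneg _),
    fun ψ i j z hz => congrArg ψ (am_of_mem hz _ _), fun i F hF => ?_, fun a ha F hF => ?_⟩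
  · rw [hsum]
    exact a1 i F hF
  · rw [hsum]
    rcases ha with rfl | rfl
    · simp only [Function.comp, am_of_not he]
      exact a2 F hF
    · simp only [Function.comp, am_of_not he']
      exact a3 F hF

end Model

end Crest.Agent.R196
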